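import Vale.Agent.P277.H619.EB.MergedT

/-!
# P277: two bounds for the number of flips of compact complex fourfolds

(A) for flips for arbitrary line bundles, by the number of flipped surfaces; (B) for the flips of NQC
canonical pairs, by the discrepancies, uniformly for the flips which are nonpositive for a given NQC
pair.
-/

open scoped Manifold ContDiff
open Vale.Agent.P272.K Vale.Agent.P285.H281.FD Vale.Agent.P277 Set

namespace Vale.Agent.Results.P277.EffectiveBound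

theorem result (Y : Type) [TopologicalSpace Y] [T2Space Y] [CompactSpace Y]
    [ChartedSpace (Cm 4) Y] [IsManifold 𝓘(ℂ, Cm 4) ω Y] :
    ∃ b : ℕ, (∀ (N : ℕ) (X Z : ℕ → CSp) (W O : Set Y) (v : Y → (X 0).pt) (τ : Set (X 0).pt)
      (f : ∀ j, (X j).pt → (Z j).pt) (f' : ∀ j, (X (j + 1)).pt → (Z j).pt)
      (A : ∀ j, Set (Z j).pt) (L : ∀ j, Bd (X j).pt) (L' : ∀ j, Bd (X (j + 1)).pt) (k : ℕ → ℕ),
      HD.IsMod (X 0) W O v τ →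
      (∀ j < N, IsFlip (X j) (Z j) (X (j + 1)) (f j) (f' j) (A j) (L j) (L' j)) →
      (∀ j < N, HD.NumSurf (X (j + 1)) (HD.Exc (f' j)) (k j)) →
      N ≤ b + 3 * ∑ j ∈ Finset.range N, k j) ∧
    ∀ (χ : Chart 4 Y → Cm 4 → Matrix (Fin 4) (Fin 4) ℂ) (k : ℕ) (M : Fin k → Bd Y)
      (m : Fin k → ℕ) (ρ σ : Fin k → ℝ) (N : ℕ) (W : CSp) (X Z : ℕ → CSp) (r : ℕ)
      (v : Y → W.pt) (p : W.pt → (X 0).pt) (P : Bd W.pt) (G : Fin r → Set Y) (f : ∀ j, (X j).pt → (Z j).pt)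
      (f' : ∀ j, (X (j + 1)).pt → (Z j).pt) (A : ∀ j, Set (Z j).pt)
      (L : ∀ j, Fin k → Bd (X j).pt) (c : ℕ → Fin k → ℕ) (n : Fin k → Fin r → ℤ)
      (t : ∀ e, (L 0 e).ι → ((((Bd.can 4 Y).pow (m e)).mul (M e)).pow (c 0 e)).ι → Y → ℂ),
      IsKahler χ → (∀ e, IsLB 4 (M e)) → (∀ e, Nef χ (M e)) → (∀ e, 1 ≤ m e) →
      (∀ e, 0 < σ e) → ∑ e, ρ e * m e = 1 → ∑ e, σ e * m e = 1 → T2.IsRes v p P G →
      (∀ j e, 1 ≤ c j e) →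
      T2.IsCmpV (fun y => p (v y)) (L 0)
        (fun e => (((Bd.can 4 Y).pow (m e)).mul (M e)).pow (c 0 e)) G n t →
      (∀ l, 0 < ∑ e, σ e * n e l / c 0 e ∨
        (∑ e, σ e * n e l / c 0 e = 0 ∧ 0 ≤ ∑ e, ρ e * n e l / c 0 e)) →
      ((∀ j < N, ∀ u : ℝ, 0 < u → u ≤ 1 → IsFlipR (X j) (Z j) (X (j + 1)) (f j) (f' j) (A j)
        (L j) (L (j + 1)) (c j) (c (j + 1)) fun e => u * ρ e + (1 - u) * σ e) ∨
      (∃ μ : ℝ, 0 ≤ μ ∧ T3.IsRTriv (X 0) (L 0) (c 0) fun e => σ e - μ * ρ e) ∧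
        ∀ j < N, IsFlipR (X j) (Z j) (X (j + 1)) (f j) (f' j) (A j)
          (L j) (L (j + 1)) (c j) (c (j + 1)) ρ) →
      N ≤ b + 3 * ∑ l, {κ : Fin k → ℕ |
        ∑ e, σ e * (κ e : ℝ) < 1 - ∑ e, σ e * n e l / c 0 e ∨
        (∑ e, σ e * (κ e : ℝ) = 1 - ∑ e, σ e * n e l / c 0 e ∧
          ∑ e, ρ e * (κ e : ℝ) < 1 - ∑ e, ρ e * n e l / c 0 e)}.ncard :=
  H619.EB.stEBT Y

end Vale.Agent.Results.P277.EffectiveBound
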